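import Vale.Agent.P216.L250.ToHol

/-!
# Parity of the winding number of families of closed polygons (P216, Theorem A)

`Par c u`: the function `u` has a continuous square root on `[0, 1]` which is multiplied by `c`
from `0` to `1`.  For `u` of norm one with `u 1 = u 0`, `Par (-1) u` says that the winding number
is odd.  `bp κ N P` is the product of the kernel along a closed polygon.
-/

namespace Vale.Agent.P216.H288

open Set Filter Topology
open Vale.Agent.P216.L250
open scoped ComplexConjugate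

/-- `u` has a continuous square root on `[0, 1]`, which is multiplied by `c` from `0` to `1`. -/
def Par (c : ℂ) (u : ℝ → ℂ) : Prop :=
  ∃ l : ℝ → ℂ, ContinuousOn l (Icc 0 1) ∧ (∀ t ∈ Icc (0 : ℝ) 1, l t ^ 2 = u t) ∧ l 1 = c * l 0

theorem Par.congr {c : ℂ} {u v : ℝ → ℂ} (hu : Par c u) (h : ∀ t ∈ Icc (0 : ℝ) 1, u t = v t) :
    Par c v := by
  obtain ⟨l, h1, h2, h3⟩ := hu
  exact ⟨l, h1, fun t ht => by rw [h2 t ht, h t ht], h3⟩

theorem Par.mul {c d : ℂ} {u v : ℝ → ℂ} (hu : Par c u) (hv : Par d v) :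
    Par (c * d) (fun t => u t * v t) := by
  obtain ⟨l, h1, h2, h3⟩ := hu
  obtain ⟨m, k1, k2, k3⟩ := hv
  refine ⟨fun t => l t * m t, h1.mul k1, fun t ht => ?_, ?_⟩
  · rw [mul_pow, h2 t ht, k2 t ht]
  · simp only [h3, k3]; ring

theorem par_one : Par 1 (fun _ => 1) :=
  ⟨fun _ => 1, continuousOn_const, fun _ _ => one_pow 2, (one_mul 1).symm⟩

theorem par_prod {ι : Type*} (s : Finset ι) (u : ι → ℝ → ℂ) (h : ∀ i ∈ s, Par 1 (u i)) :
    Par 1 (fun t => ∏ i ∈ s, u i t) := by
  classical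
  induction s using Finset.induction_on with
  | empty => simpa using par_one
  | insert a s ha ih =>
    have h1 := (h a (Finset.mem_insert_self _ _)).mul
      (ih fun i hi => h i (Finset.mem_insert_of_mem hi))
    rw [mul_one] at h1
    refine h1.congr fun t _ => ?_
    rw [Finset.prod_insert ha]

theorem mem_slitPlane_of_near {z : ℂ} (h : ‖z - 1‖ < 1) : z ∈ Complex.slitPlane := by
  left
  have h1 := Complex.abs_re_le_norm (z - 1)
  rw [Complex.sub_re, Complex.one_re] at h1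
  have h2 := (abs_lt.1 (h1.trans_lt h)).1
  linarith

/-- A closed path close to `1` has an even winding number. -/
theorem par_of_near {u : ℝ → ℂ} (hu : ContinuousOn u (Icc 0 1))
    (h1 : ∀ t ∈ Icc (0 : ℝ) 1, ‖u t - 1‖ < 1) (h2 : u 1 = u 0) : Par 1 u := by
  refine ⟨fun t => (u t) ^ (((2 : ℕ) : ℂ)⁻¹), ?_, fun t _ => ?_, ?_⟩
  · intro t ht
    exact (continuousAt_cpow_const (mem_slitPlane_of_near (h1 t ht))).comp_continuousWithinAt
      (hu t ht)
  · exact Complex.cpow_nat_inv_pow _ two_ne_zero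
  · simp only [h2, one_mul]

theorem conj_mul_self_of_norm {z : ℂ} (h : ‖z‖ = 1) : conj z * z = 1 := by
  rw [mul_comm, Complex.mul_conj, Complex.normSq_eq_norm_sq, h]
  simp

theorem Par.of_div {c : ℂ} {u v : ℝ → ℂ} (hv1 : ∀ t ∈ Icc (0 : ℝ) 1, ‖v t‖ = 1)
    (h : Par 1 (fun t => u t * conj (v t))) (hv : Par c v) : Par c u := by
  have h1 := h.mul hv
  rw [one_mul] at h1
  refine h1.congr fun t ht => ?_
  rw [mul_assoc, conj_mul_self_of_norm (hv1 t ht), mul_one]

theorem Par.of_close {c : ℂ} {u v : ℝ → ℂ} (hu : ContinuousOn u (Icc 0 1))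
    (hv : ContinuousOn v (Icc 0 1)) (hv1 : ∀ t ∈ Icc (0 : ℝ) 1, ‖v t‖ = 1) (hu2 : u 1 = u 0)
    (hv2 : v 1 = v 0) (h : ∀ t ∈ Icc (0 : ℝ) 1, ‖u t - v t‖ < 1) (hp : Par c v) : Par c u := by
  refine Par.of_div hv1 (par_of_near (hu.mul (Complex.continuous_conj.comp_continuousOn hv))
    (fun t ht => ?_) ?_) hp
  · have h3 := conj_mul_self_of_norm (hv1 t ht)
    have h4 : u t * conj (v t) - 1 = (u t - v t) * conj (v t) := by
      rw [sub_mul, mul_comm (v t), h3]
    change ‖u t * conj (v t) - 1‖ < 1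
    rw [h4, norm_mul, RCLike.norm_conj, hv1 t ht, mul_one]
    exact h t ht
  · simp only [hu2, hv2]

/-! ### Polygons -/

variable {Y : Type*} [MetricSpace Y] {κ : Y → Y → ℂ} {A r : ℝ}

/-- The product of the kernel along a polygon. -/
def bp (κ : Y → Y → ℂ) (N : ℕ) (P : ℕ → Y) : ℂ := ∏ i ∈ Finset.range N, κ (P i) (P (i + 1))

/-- The product of the kernel around a quadrilateral. -/
def quad (κ : Y → Y → ℂ) (x y z w : Y) : ℂ := κ x y * κ y z * κ z w * κ w x

omit [MetricSpace Y] in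
theorem bp_congr {N : ℕ} {P Q : ℕ → Y} (h : ∀ i ≤ N, P i = Q i) : bp κ N P = bp κ N Q := by
  refine Finset.prod_congr rfl fun i hi => ?_
  have := Finset.mem_range.1 hi
  rw [h i (by omega), h (i + 1) (by omega)]

theorem norm_bp (h : Ker κ A r) (N : ℕ) (P : ℕ → Y) : ‖bp κ N P‖ = 1 := by
  simp [bp, norm_prod, h.norm_one]

theorem norm_quad (h : Ker κ A r) (x y z w : Y) : ‖quad κ x y z w‖ = 1 := by
  simp [quad, h.norm_one]

theorem prod_shift {N : ℕ} (f : ℕ → ℂ) (h0 : f N = f 0) (h1 : f 0 ≠ 0) :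
    ∏ i ∈ Finset.range N, f (i + 1) = ∏ i ∈ Finset.range N, f i := by
  have h2 := Finset.prod_range_succ f N
  rw [Finset.prod_range_succ', h0] at h2
  exact mul_right_cancel₀ h1 h2

theorem bp_mul_conj (h : Ker κ A r) {N : ℕ} {P Q : ℕ → Y} (hP : P N = P 0) (hQ : Q N = Q 0) :
    bp κ N P * conj (bp κ N Q) =
      ∏ i ∈ Finset.range N, quad κ (P i) (P (i + 1)) (Q (i + 1)) (Q i) := by
  have h1 : ∏ i ∈ Finset.range N, quad κ (P i) (P (i + 1)) (Q (i + 1)) (Q i) =
      (∏ i ∈ Finset.range N, κ (P i) (P (i + 1))) *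
      (∏ i ∈ Finset.range N, κ (P (i + 1)) (Q (i + 1))) *
      (∏ i ∈ Finset.range N, κ (Q (i + 1)) (Q i)) * ∏ i ∈ Finset.range N, κ (Q i) (P i) := by
    simp only [quad, Finset.prod_mul_distrib]
  have h2 := prod_shift (N := N) (fun i => κ (P i) (Q i)) (by simp only [hP, hQ]) (h.ne_zero _ _)
  have h3 : (∏ i ∈ Finset.range N, κ (P i) (Q i)) * ∏ i ∈ Finset.range N, κ (Q i) (P i) = 1 := by
    rw [← Finset.prod_mul_distrib]
    exact Finset.prod_eq_one fun i _ => h.mul_symm _ _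
  have h4 : conj (bp κ N Q) = ∏ i ∈ Finset.range N, κ (Q (i + 1)) (Q i) := by
    rw [bp, map_prod]
    exact Finset.prod_congr rfl fun i _ => (h.symm _ _).symm
  rw [h1, h2, h4, bp]
  linear_combination (-(∏ i ∈ Finset.range N, κ (P i) (P (i + 1))) *
    ∏ i ∈ Finset.range N, κ (Q (i + 1)) (Q i)) * h3

theorem quad_near (h : Ker κ A r) {x y z w : Y} (h1 : dist x y < r) (h2 : dist y z < r)
    (h3 : dist z w < r) (h4 : dist w x < r) :
    ‖quad κ x y z w - 1‖ ≤ A * dist x y * dist y z + A * dist z w * dist w x := by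
  have e1 := h.area x y z h1 h2
  have e2 := h.area z w x h3 h4
  have e3 : quad κ x y z w - 1 = (κ x y * κ y z * κ z x - 1) * (κ z w * κ w x * κ x z) +
      (κ z w * κ w x * κ x z - 1) := by
    rw [quad]
    linear_combination (-(κ x y * κ y z * κ z w * κ w x)) * h.mul_symm z x
  rw [e3]
  refine (norm_add_le _ _).trans (add_le_add ?_ e2)
  rw [norm_mul, norm_mul, norm_mul, h.norm_one, h.norm_one, h.norm_one, one_mul, one_mul, mul_one]
  exact e1

theorem norm_prod_sub_one_le {N : ℕ} (f : ℕ → ℂ) (hf : ∀ i < N, ‖f i‖ = 1) :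
    ‖(∏ i ∈ Finset.range N, f i) - 1‖ ≤ ∑ i ∈ Finset.range N, ‖f i - 1‖ := by
  induction N with
  | zero => simp
  | succ N ih =>
    have ih' := ih fun i hi => hf i (by omega)
    rw [Finset.prod_range_succ, Finset.sum_range_succ]
    have e1 : (∏ i ∈ Finset.range N, f i) * f N - 1 =
        ((∏ i ∈ Finset.range N, f i) - 1) * f N + (f N - 1) := by ring
    rw [e1]
    refine (norm_add_le _ _).trans (add_le_add ?_ le_rfl)
    rw [norm_mul, hf N (by omega), mul_one]
    exact ih'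

/-- Two closed polygons which are close have close products. -/
theorem norm_bp_sub_le (h : Ker κ A r) {N : ℕ} {P Q : ℕ → Y} (hP : P N = P 0) (hQ : Q N = Q 0)
    (hPs : ∀ i < N, dist (P i) (P (i + 1)) < r) (hQs : ∀ i < N, dist (Q i) (Q (i + 1)) < r)
    {δ : ℝ} (hδ : δ < r) (hd : ∀ i ≤ N, dist (P i) (Q i) ≤ δ) :
    ‖bp κ N P - bp κ N Q‖ ≤ N * (2 * A * r * δ) := by
  have h1 : ‖bp κ N P - bp κ N Q‖ = ‖bp κ N P * conj (bp κ N Q) - 1‖ := by
    have h2 := conj_mul_self_of_norm (norm_bp h N Q)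
    have h4 : bp κ N P * conj (bp κ N Q) - 1 = (bp κ N P - bp κ N Q) * conj (bp κ N Q) := by
      rw [sub_mul, mul_comm (bp κ N Q), h2]
    rw [h4, norm_mul, RCLike.norm_conj, norm_bp h, mul_one]
  rw [h1, bp_mul_conj h hP hQ]
  refine (norm_prod_sub_one_le _ fun i _ => norm_quad h _ _ _ _).trans ?_
  have h5 : ∀ i ∈ Finset.range N, ‖quad κ (P i) (P (i + 1)) (Q (i + 1)) (Q i) - 1‖ ≤
      2 * A * r * δ := by
    intro i hi
    have hi' := Finset.mem_range.1 hi
    have a1 := hPs i hi'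
    have a2 := hQs i hi'
    rw [dist_comm] at a2
    have a3 := hd i (by omega)
    rw [dist_comm] at a3
    have a4 := hd (i + 1) (by omega)
    have hA := h.A_nonneg
    have hr := h.r_pos
    refine (quad_near h a1 (a4.trans_lt hδ) a2 (a3.trans_lt hδ)).trans ?_
    have b1 : A * dist (P i) (P (i + 1)) * dist (P (i + 1)) (Q (i + 1)) ≤ A * r * δ := by
      gcongr
    have b2 : A * dist (Q (i + 1)) (Q i) * dist (Q i) (P i) ≤ A * r * δ := by gcongr
    linarith
  calc _ ≤ ∑ _i ∈ Finset.range N, 2 * A * r * δ := Finset.sum_le_sum h5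
    _ = _ := by rw [Finset.sum_const, Finset.card_range, nsmul_eq_mul]

/-- Continuity of the product in families of closed polygons. -/
theorem continuousOn_bp {T : Type*} [TopologicalSpace T] {S : Set T} (h : Ker κ A r) {N : ℕ}
    {P : T → ℕ → Y} (hc : ∀ i ≤ N, ContinuousOn (fun t => P t i) S)
    (hs : ∀ t ∈ S, ∀ i < N, dist (P t i) (P t (i + 1)) < r) (hcl : ∀ t ∈ S, P t N = P t 0) :
    ContinuousOn (fun t => bp κ N (P t)) S := by
  intro t₀ ht₀
  rw [ContinuousWithinAt, Metric.tendsto_nhds]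
  intro ε hε
  have hA := h.A_nonneg
  have hr := h.r_pos
  have h1 : ∀ᶠ t in 𝓝[S] t₀, ∀ i ∈ Finset.range (N + 1),
      dist (P t i) (P t₀ i) < min (r / 2) (ε / (N * (2 * A * r) + 1)) := by
    rw [Filter.eventually_all_finset]
    intro i hi
    exact Metric.tendsto_nhds.1 (hc i (by have := Finset.mem_range.1 hi; omega) t₀ ht₀) _
      (lt_min (by positivity) (by positivity))
  filter_upwards [h1, self_mem_nhdsWithin] with t ht htS
  rw [dist_eq_norm]
  refine (norm_bp_sub_le h (hcl t htS) (hcl t₀ ht₀) (hs t htS) (hs t₀ ht₀)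
    (δ := min (r / 2) (ε / (N * (2 * A * r) + 1))) ?_ fun i hi => ?_).trans_lt ?_
  · exact (min_le_left _ _).trans_lt (by linarith)
  · exact (ht i (Finset.mem_range.2 (by omega))).le
  · have h3 : 0 < N * (2 * A * r) + 1 := by positivity
    calc (N : ℝ) * (2 * A * r * min (r / 2) (ε / (N * (2 * A * r) + 1)))
        = (N * (2 * A * r)) * min (r / 2) (ε / (N * (2 * A * r) + 1)) := by ring
      _ ≤ (N * (2 * A * r)) * (ε / (N * (2 * A * r) + 1)) :=
          mul_le_mul_of_nonneg_left (min_le_right _ _) (by positivity)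
      _ < ε := by
          rw [mul_div_assoc', div_lt_iff₀ h3]
          nlinarith

omit [MetricSpace Y] in
theorem quad_eq_bp (x y z w : Y) : quad κ x y z w = bp κ 4 (fun i =>
    match i with
    | 0 => x
    | 1 => y
    | 2 => z
    | 3 => w
    | _ => x) := by
  simp [quad, bp, Finset.prod_range_succ]

theorem continuousOn_quad {T : Type*} [TopologicalSpace T] {S : Set T} (h : Ker κ A r)
    {x y z w : T → Y} (hx : ContinuousOn x S) (hy : ContinuousOn y S) (hz : ContinuousOn z S)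
    (hw : ContinuousOn w S) (h1 : ∀ t ∈ S, dist (x t) (y t) < r)
    (h2 : ∀ t ∈ S, dist (y t) (z t) < r) (h3 : ∀ t ∈ S, dist (z t) (w t) < r)
    (h4 : ∀ t ∈ S, dist (w t) (x t) < r) :
    ContinuousOn (fun t => quad κ (x t) (y t) (z t) (w t)) S := by
  simp only [quad_eq_bp]
  refine continuousOn_bp h (fun i hi => ?_) (fun t ht i hi => ?_) fun t ht => rfl
  · interval_cases i <;> assumption
  · interval_cases i
    · exact h1 t ht
    · exact h2 t ht
    · exact h3 t ht
    · exact h4 t ht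

/-! ### Families over the interval -/

/-- A continuous family of closed `N`-gons with steps `< r`, closed in the parameter. -/
structure IsFam (N : ℕ) (r : ℝ) (P : ℝ → ℕ → Y) : Prop where
  cont : ∀ i ≤ N, ContinuousOn (fun t => P t i) (Icc 0 1)
  step : ∀ t ∈ Icc (0 : ℝ) 1, ∀ i < N, dist (P t i) (P t (i + 1)) < r
  closed : ∀ t ∈ Icc (0 : ℝ) 1, P t N = P t 0
  per : ∀ i ≤ N, P 1 i = P 0 i

theorem IsFam.mono {N : ℕ} {r r' : ℝ} {P : ℝ → ℕ → Y} (h : IsFam N r P) (hr : r ≤ r') :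
    IsFam N r' P := { h with step := fun t ht i hi => (h.step t ht i hi).trans_le hr }

theorem IsFam.continuousOn_bp {N : ℕ} {P : ℝ → ℕ → Y} (hP : IsFam N r P) (h : Ker κ A r) :
    ContinuousOn (fun t => bp κ N (P t)) (Icc 0 1) :=
  H288.continuousOn_bp h hP.cont hP.step hP.closed

theorem IsFam.bp_per {N : ℕ} {P : ℝ → ℕ → Y} (hP : IsFam N r P) :
    bp κ N (P 1) = bp κ N (P 0) := bp_congr hP.per

/-- Two families of polygons at distance smaller than an absolute constant have the same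
parity, whatever the number of vertices. -/
theorem IsFam.close (h : Ker κ A r) {r' : ℝ} (hr : r' ≤ r) (hA : 2 * A * r' ^ 2 < 1) {N : ℕ}
    {P Q : ℝ → ℕ → Y} (hP : IsFam N r' P) (hQ : IsFam N r' Q)
    (hd : ∀ t ∈ Icc (0 : ℝ) 1, ∀ i ≤ N, dist (P t i) (Q t i) < r') {c : ℂ}
    (hp : Par c (fun t => bp κ N (Q t))) : Par c (fun t => bp κ N (P t)) := by
  refine Par.of_div (fun t _ => norm_bp h _ _) ?_ hp
  have h1 : Par 1 (fun t => ∏ i ∈ Finset.range N,
      quad κ (P t i) (P t (i + 1)) (Q t (i + 1)) (Q t i)) := by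
    refine par_prod _ _ fun i hi => ?_
    have hi' := Finset.mem_range.1 hi
    have a1 : ∀ t ∈ Icc (0 : ℝ) 1, dist (P t i) (P t (i + 1)) < r' := fun t ht =>
      hP.step t ht i hi'
    have a2 : ∀ t ∈ Icc (0 : ℝ) 1, dist (P t (i + 1)) (Q t (i + 1)) < r' := fun t ht =>
      hd t ht (i + 1) (by omega)
    have a3 : ∀ t ∈ Icc (0 : ℝ) 1, dist (Q t (i + 1)) (Q t i) < r' := fun t ht => by
      rw [dist_comm]; exact hQ.step t ht i hi'
    have a4 : ∀ t ∈ Icc (0 : ℝ) 1, dist (Q t i) (P t i) < r' := fun t ht => by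
      rw [dist_comm]; exact hd t ht i (by omega)
    refine par_of_near ?_ (fun t ht => ?_) ?_
    · exact continuousOn_quad h (hP.cont i (by omega)) (hP.cont (i + 1) (by omega))
        (hQ.cont (i + 1) (by omega)) (hQ.cont i (by omega))
        (fun t ht => (a1 t ht).trans_le hr) (fun t ht => (a2 t ht).trans_le hr)
        (fun t ht => (a3 t ht).trans_le hr) (fun t ht => (a4 t ht).trans_le hr)
    · have hA' := h.A_nonneg
      have b0 : 0 < r' := dist_nonneg.trans_lt (a1 t ht)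
      refine (quad_near h ((a1 t ht).trans_le hr) ((a2 t ht).trans_le hr) ((a3 t ht).trans_le hr)
        ((a4 t ht).trans_le hr)).trans_lt ?_
      have b1 : A * dist (P t i) (P t (i + 1)) * dist (P t (i + 1)) (Q t (i + 1)) ≤ A * r' * r' := by
        have := (a1 t ht).le
        have := (a2 t ht).le
        gcongr
      have b2 : A * dist (Q t (i + 1)) (Q t i) * dist (Q t i) (P t i) ≤ A * r' * r' := by
        have := (a3 t ht).le
        have := (a4 t ht).le
        gcongr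
      nlinarith
    · simp only [hP.per i (by omega), hP.per (i + 1) (by omega), hQ.per i (by omega),
        hQ.per (i + 1) (by omega)]
  exact h1.congr fun t ht => (bp_mul_conj h (hP.closed t ht) (hQ.closed t ht)).symm

/-- Homotopy invariance of the parity. -/
theorem par_homotopy (h : Ker κ A r) {N : ℕ} {P : ℝ → ℝ → ℕ → Y}
    (hc : ∀ i ≤ N, ContinuousOn (fun q : ℝ × ℝ => P q.1 q.2 i) (Icc 0 1 ×ˢ Icc 0 1))
    (hs : ∀ s ∈ Icc (0 : ℝ) 1, ∀ t ∈ Icc (0 : ℝ) 1, ∀ i < N, dist (P s t i) (P s t (i + 1)) < r)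
    (hcl : ∀ s ∈ Icc (0 : ℝ) 1, ∀ t ∈ Icc (0 : ℝ) 1, P s t N = P s t 0)
    (hper : ∀ s ∈ Icc (0 : ℝ) 1, ∀ i ≤ N, P s 1 i = P s 0 i) {c : ℂ}
    (h0 : Par c (fun t => bp κ N (P 0 t))) : Par c (fun t => bp κ N (P 1 t)) := by
  have hF : ContinuousOn (fun q : ℝ × ℝ => bp κ N (P q.1 q.2)) (Icc 0 1 ×ˢ Icc 0 1) :=
    continuousOn_bp h hc (fun q hq i hi => hs q.1 hq.1 q.2 hq.2 i hi)
      fun q hq => hcl q.1 hq.1 q.2 hq.2
  have hu := (isCompact_Icc.prod isCompact_Icc).uniformContinuousOn_of_continuous hF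
  rw [Metric.uniformContinuousOn_iff] at hu
  obtain ⟨δ, hδ, H⟩ := hu 1 one_pos
  obtain ⟨n, hn⟩ := exists_nat_gt (1 / δ)
  have hn0 : (0 : ℝ) < n := lt_trans (by positivity) hn
  have hfs : ∀ s ∈ Icc (0 : ℝ) 1, ContinuousOn (fun t => bp κ N (P s t)) (Icc 0 1) :=
    fun s hs' => hF.comp (f := fun t : ℝ => (s, t)) (by fun_prop) fun t ht => ⟨hs', ht⟩
  have key : ∀ k : ℕ, k ≤ n → Par c (fun t => bp κ N (P ((k : ℝ) / n) t)) := by
    intro k
    induction k with
    | zero => intro _; simpa using h0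
    | succ k ih =>
      intro hk
      have ih' := ih (by omega)
      have m0 : (k : ℝ) / n ∈ Icc (0 : ℝ) 1 := ⟨by positivity, by
        rw [div_le_one hn0]; exact_mod_cast (by omega : k ≤ n)⟩
      have m1 : ((k + 1 : ℕ) : ℝ) / n ∈ Icc (0 : ℝ) 1 := ⟨by positivity, by
        rw [div_le_one hn0]; exact_mod_cast hk⟩
      refine Par.of_close (hfs _ m1) (hfs _ m0) (fun t _ => norm_bp h _ _)
        (bp_congr (hper _ m1)) (bp_congr (hper _ m0)) (fun t ht => ?_) ih'
      have h1 := H (((k + 1 : ℕ) : ℝ) / n, t) ⟨m1, ht⟩ ((k : ℝ) / n, t) ⟨m0, ht⟩ ?_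
      · rw [dist_eq_norm] at h1
        exact h1
      · rw [Prod.dist_eq, dist_self, Real.dist_eq]
        have h2 : ((k + 1 : ℕ) : ℝ) / n - (k : ℝ) / n = 1 / n := by push_cast; ring
        rw [h2, abs_of_pos (by positivity)]
        refine max_lt ?_ hδ
        rw [div_lt_iff₀ hδ] at hn
        rw [div_lt_iff₀ hn0]
        linarith
  have := key n le_rfl
  rwa [div_self hn0.ne'] at this

/-! ### Repeated vertices -/

theorem bp_repeat (h : Ker κ A r) {q : ℕ} (hq : 0 < q) (N : ℕ) (P : ℕ → Y) :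
    bp κ (N * q) (fun j => P (j / q)) = bp κ N P := by
  induction N with
  | zero => simp [bp]
  | succ N ih =>
    have h1 : bp κ ((N + 1) * q) (fun j => P (j / q)) = bp κ (N * q) (fun j => P (j / q)) *
        ∏ j ∈ Finset.range q, κ (P ((N * q + j) / q)) (P ((N * q + j + 1) / q)) := by
      rw [bp, Nat.succ_mul, Finset.prod_range_add, bp]
    obtain ⟨m, rfl⟩ : ∃ m, q = m + 1 := ⟨q - 1, by omega⟩
    have h2 : ∀ j < m + 1, (N * (m + 1) + j) / (m + 1) = N := by
      intro j hj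
      rw [mul_comm, Nat.mul_add_div hq, Nat.div_eq_of_lt hj, add_zero]
    rw [h1, ih, Finset.prod_range_succ, Finset.prod_eq_one, one_mul, h2 m (by omega)]
    · have h3 : (N * (m + 1) + m + 1) / (m + 1) = N + 1 := by
        rw [show N * (m + 1) + m + 1 = (N + 1) * (m + 1) by ring, Nat.mul_div_cancel _ hq]
      rw [h3, bp, bp, Finset.prod_range_succ]
    · intro j hj
      have hj' := Finset.mem_range.1 hj
      rw [h2 j (by omega), add_assoc, h2 (j + 1) (by omega), h.self]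

/-! ### The holonomy of a loop and the products along its samples -/

theorem norm_prod_sub_prod_le {N : ℕ} (f g : ℕ → ℂ) (hf : ∀ i, ‖f i‖ = 1) (hg : ∀ i, ‖g i‖ = 1) :
    ‖(∏ i ∈ Finset.range N, f i) - ∏ i ∈ Finset.range N, g i‖ ≤
      ∑ i ∈ Finset.range N, ‖f i - g i‖ := by
  induction N with
  | zero => simp
  | succ N ih =>
    rw [Finset.prod_range_succ, Finset.prod_range_succ, Finset.sum_range_succ]
    have e1 : (∏ i ∈ Finset.range N, f i) * f N - (∏ i ∈ Finset.range N, g i) * g N =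
        ((∏ i ∈ Finset.range N, f i) - ∏ i ∈ Finset.range N, g i) * f N +
        (∏ i ∈ Finset.range N, g i) * (f N - g N) := by ring
    rw [e1]
    refine (norm_add_le _ _).trans (add_le_add ?_ ?_)
    · rw [norm_mul, hf N, mul_one]
      exact ih
    · rw [norm_mul, norm_prod, Finset.prod_congr rfl fun i _ => hg i]
      simp

theorem prod_U (h : Ker κ A r) (g : ℝ → Y) (N : ℕ) (m : ℕ) :
    ∏ i ∈ Finset.range m, U κ g ((i : ℝ) / N) (((i + 1 : ℕ) : ℝ) / N) = U κ g 0 ((m : ℝ) / N) := by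
  induction m with
  | zero => simp [h.U_self]
  | succ m ih =>
    rw [Finset.prod_range_succ, ih]
    refine h.U_mul g (by positivity) ?_
    push_cast
    gcongr
    linarith

/-- The holonomy of a loop is close to the product along its samples. -/
theorem hol_near_bp (h : Ker κ A r) {s : ℝ} {g : LM Y} (hg : g ∈ XE Y s) {N : ℕ} (hN : 0 < N)
    (hr : s ^ 2 < N * r ^ 2) :
    ‖hol κ g - bp κ N (fun i => fn g ((i : ℝ) / N))‖ ≤ A * (s ^ 2 / N) := by
  obtain ⟨e, he0, he, heC⟩ := hg.cert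
  have hN' : (0 : ℝ) < N := Nat.cast_pos.2 hN
  have m1 : ∀ x y, x ≤ y → e x ≤ e y := fun x y hxy => (he x y).mono_fun le_rfl hxy le_rfl
  have h1 : hol κ g = ∏ i ∈ Finset.range N,
      U κ (fn g) ((i : ℝ) / N) (((i + 1 : ℕ) : ℝ) / N) := by
    rw [prod_U h, div_self hN'.ne', hol]
  have hstep : ∀ i : ℕ, ((i + 1 : ℕ) : ℝ) / N - (i : ℝ) / N = 1 / N := fun i => by
    push_cast; ring
  have hle : ∀ i : ℕ, (i : ℝ) / N ≤ ((i + 1 : ℕ) : ℝ) / N := fun i => by
    have := hstep i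
    have h2 : (0 : ℝ) < 1 / N := by positivity
    linarith
  rw [h1, bp]
  refine (norm_prod_sub_prod_le _ _ (fun i => h.norm_U _ _ _) fun i => h.norm_one _ _).trans ?_
  have h5 : ∀ i ∈ Finset.range N, ‖U κ (fn g) ((i : ℝ) / N) (((i + 1 : ℕ) : ℝ) / N) -
      κ (fn g ((i : ℝ) / N)) (fn g (((i + 1 : ℕ) : ℝ) / N))‖ ≤
      A * (1 / N) * (e (((i + 1 : ℕ) : ℝ) / N) - e ((i : ℝ) / N)) := by
    intro i hi
    have hi' := Finset.mem_range.1 hi
    have h2 := h.U_near he heC (hle i) ?_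
    · rw [hstep] at h2
      calc _ ≤ _ := h2
        _ = _ := by ring
    · rw [hstep, Real.sqrt_lt' h.r_pos]
      have h6 : e (((i + 1 : ℕ) : ℝ) / N) - e ((i : ℝ) / N) ≤ s ^ 2 := by
        have a1 := m1 0 ((i : ℝ) / N) (by positivity)
        have a2 := m1 (((i + 1 : ℕ) : ℝ) / N) 1 (by
          rw [div_le_one hN']; exact_mod_cast hi')
        have a3 := heC 0
        rw [zero_add] at a3
        linarith
      calc (1 : ℝ) / N * (e (((i + 1 : ℕ) : ℝ) / N) - e ((i : ℝ) / N)) ≤ 1 / N * s ^ 2 := by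
            gcongr
        _ < r ^ 2 := by rw [one_div, inv_mul_lt_iff₀ hN']; exact hr
  refine (Finset.sum_le_sum h5).trans ?_
  rw [← Finset.mul_sum, Finset.sum_range_sub (fun n : ℕ => e ((n : ℝ) / N))]
  have a3 := heC 0
  rw [zero_add] at a3
  rw [div_self hN'.ne', Nat.cast_zero, zero_div, a3]
  refine le_of_eq ?_
  ring

end Vale.Agent.P216.H288
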