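import Vale.Agent.P216.A215.Stmt
import Vale.Agent.P216.H288.Wind
import Vale.Agent.P216.Ker923.Kernel

/-!
# The standard family of bigons of `ℂP^1` and its holonomy (P216, Theorem A)

`gam t : ℝ → ℂP^1` goes on `[0, 1/2]` from `[1 : 0]` to `[0 : 1]` along the real meridian and
comes back on `[1/2, 1]` along the meridian of longitude `2 π t`.  The product of the transport
kernel of `ℂP^(K+1)` along the `2m` samples of the image of `gam t` by `powMap K d` is
`exp (2 π i d t)`; for `d` odd its square root changes sign.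
-/

namespace Vale.Agent.P216.H288

open Set Filter Topology
open Vale.Agent.P216.H391 hiding kap
open Vale.Agent.P216.Ker923
open scoped ComplexConjugate

/-! ### The product of the kernel along a polygon given by vectors -/

section vectors

variable {N : ℕ}

theorem ip_smul_smul (a b : ℂ) (v w : Fin N → ℂ) :
    ip (a • v) (b • w) = conj a * b * ip v w := by
  simp only [ip, Pi.smul_apply, smul_eq_mul, map_mul, Finset.mul_sum]
  exact Finset.sum_congr rfl fun _ _ => by ring

/-- If `P` is the line of `v`, then `v` is a multiple of the unit vector of `P`. -/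
theorem exists_smul_uv {P : CP N} {v : Fin N → ℂ} (hv : 0 < ns v) (hP : P.1 = npr v) :
    ip (uv P) v ≠ 0 ∧ v = ip (uv P) v • uv P := by
  have h1 : ∀ i, v i = ip (uv P) v * uv P i := by
    intro i
    have e1 : ∑ j, prj (uv P) i j * v j = ip (uv P) v * uv P i := by
      rw [ip, Finset.sum_mul]
      exact Finset.sum_congr rfl fun j _ => by rw [prj]; ring
    have e2 : ∑ j, npr v i j * v j = v i := by
      have e3 : ∑ j, npr v i j * v j = v i * (ip v v / ((ns v : ℝ) : ℂ)) := by
        rw [ip, Finset.sum_div, Finset.mul_sum]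
        exact Finset.sum_congr rfl fun j _ => by rw [npr]; ring
      have h0 : ((ns v : ℝ) : ℂ) ≠ 0 := by exact_mod_cast hv.ne'
      rw [e3, ip_self, div_self h0, mul_one]
    rw [← e1, prj_uv, hP, e2]
  have h2 : v = ip (uv P) v • uv P := by
    funext i
    rw [Pi.smul_apply, smul_eq_mul]
    exact h1 i
  refine ⟨fun h => ?_, h2⟩
  rw [h, zero_smul] at h2
  rw [h2] at hv
  simp [ns] at hv

/-- The product of the kernel along a closed polygon, computed with arbitrary vectors. -/
theorem bp_kap_eq {n : ℕ} {P : ℕ → CP N} {v : ℕ → Fin N → ℂ} (hv : ∀ i ≤ n, 0 < ns (v i))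
    (hP : ∀ i ≤ n, (P i).1 = npr (v i)) (hv0 : v n = v 0)
    (hne : ∀ i < n, ip (v i) (v (i + 1)) ≠ 0) :
    bp kap n P = ∏ i ∈ Finset.range n, phs (ip (v i) (v (i + 1))) := by
  have hPn : P n = P 0 := Subtype.ext (by rw [hP n le_rfl, hP 0 (Nat.zero_le _), hv0])
  set g : ℕ → ℂ := fun i => ip (uv (P i)) (v i) with hg
  have hg0 : ∀ i ≤ n, g i ≠ 0 := fun i hi => (exists_smul_uv (hv i hi) (hP i hi)).1
  have hgv : ∀ i ≤ n, v i = g i • uv (P i) := fun i hi => (exists_smul_uv (hv i hi) (hP i hi)).2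
  have hstep : ∀ i ∈ Finset.range n, phs (ip (v i) (v (i + 1))) =
      conj (phs (g i)) * phs (g (i + 1)) * kap (P i) (P (i + 1)) := by
    intro i hi
    have hi' := Finset.mem_range.1 hi
    have h1 := hne i hi'
    have h2 : ip (v i) (v (i + 1)) =
        conj (g i) * g (i + 1) * ip (uv (P i)) (uv (P (i + 1))) := by
      conv_lhs => rw [hgv i (by omega), hgv (i + 1) (by omega)]
      exact ip_smul_smul _ _ _ _
    rw [h2] at h1 ⊢
    rw [phs_mul (left_ne_zero_of_mul h1) (right_ne_zero_of_mul h1),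
      phs_mul (left_ne_zero_of_mul (left_ne_zero_of_mul h1))
        (right_ne_zero_of_mul (left_ne_zero_of_mul h1)), phs_conj]
    rfl
  have hphs : ∀ z : ℂ, phs z ≠ 0 := fun z h => by
    have := norm_phs z
    rw [h, norm_zero] at this
    exact zero_ne_one this
  have hgn : g n = g 0 := by
    simp only [hg, hPn, hv0]
  have h3 := prod_shift (N := n) (fun i => phs (g i)) (by simp only [hgn]) (hphs _)
  have h4 : (∏ i ∈ Finset.range n, conj (phs (g i))) * ∏ i ∈ Finset.range n, phs (g i) = 1 := by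
    rw [← Finset.prod_mul_distrib]
    exact Finset.prod_eq_one fun i _ => conj_mul_self_of_norm (norm_phs _)
  rw [Finset.prod_congr rfl hstep, Finset.prod_mul_distrib, Finset.prod_mul_distrib, h3, h4,
    one_mul, bp]

end vectors

/-! ### The family -/

/-- The colatitude: from `0` to `π / 2` and back. -/
noncomputable def ang (u : ℝ) : ℝ := Real.pi * min u (1 - u)

/-- The phase of the second coordinate. -/
noncomputable def pha (t u : ℝ) : ℂ :=
  if u ≤ 1 / 2 then 1 else Complex.exp ((2 * Real.pi * t : ℝ) * Complex.I)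

/-- The unit vector of the standard family. -/
noncomputable def gv (t u : ℝ) : Fin 2 → ℂ :=
  ![((Real.cos (ang u) : ℝ) : ℂ), pha t u * ((Real.sin (ang u) : ℝ) : ℂ)]

theorem norm_pha (t u : ℝ) : ‖pha t u‖ = 1 := by
  unfold pha
  split_ifs
  · simp
  · exact Complex.norm_exp_ofReal_mul_I _

theorem ns_gv (t u : ℝ) : ns (gv t u) = 1 := by
  rw [ns, Fin.sum_univ_two]
  simp only [gv, Matrix.cons_val_zero, Matrix.cons_val_one, norm_mul, norm_pha, one_mul,
    Complex.norm_real, Real.norm_eq_abs, sq_abs]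
  exact Real.cos_sq_add_sin_sq _

/-- The standard family of bigons of `ℂP^1`. -/
noncomputable def gam (t u : ℝ) : CPn 1 := ⟨prj (gv t u), gv t u, ns_gv t u, rfl⟩

theorem gam_val (t u : ℝ) : (gam t u).1 = prj (gv t u) := rfl

theorem ang_half : ang (1 / 2) = Real.pi / 2 := by
  have : min (1 / 2 : ℝ) (1 - 1 / 2) = 1 / 2 := by norm_num
  rw [ang, this]; ring

theorem continuous_ang : Continuous ang := by unfold ang; fun_prop

/-- The off diagonal entry is continuous. -/
theorem continuous_off : Continuous fun q : ℝ × ℝ =>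
    pha q.1 q.2 * ((Real.sin (ang q.2) * Real.cos (ang q.2) : ℝ) : ℂ) := by
  have hs : Continuous fun q : ℝ × ℝ => ((Real.sin (ang q.2) * Real.cos (ang q.2) : ℝ) : ℂ) := by
    have := continuous_ang
    fun_prop
  have he : Continuous fun q : ℝ × ℝ =>
      Complex.exp ((2 * Real.pi * q.1 : ℝ) * Complex.I) := by fun_prop
  have h : (fun q : ℝ × ℝ => pha q.1 q.2 * ((Real.sin (ang q.2) * Real.cos (ang q.2) : ℝ) : ℂ)) =
      fun q : ℝ × ℝ => if q.2 ≤ 1 / 2 then
        ((Real.sin (ang q.2) * Real.cos (ang q.2) : ℝ) : ℂ) else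
        Complex.exp ((2 * Real.pi * q.1 : ℝ) * Complex.I) *
          ((Real.sin (ang q.2) * Real.cos (ang q.2) : ℝ) : ℂ) := by
    funext q
    unfold pha
    split_ifs
    · rw [one_mul]
    · rfl
  rw [h]
  refine Continuous.if_le hs (he.mul hs) continuous_snd continuous_const fun q hq => ?_
  rw [hq, ang_half, Real.cos_pi_div_two]
  simp

theorem continuous_gam : Continuous fun q : ℝ × ℝ => gam q.1 q.2 := by
  refine Continuous.subtype_mk ?_ _
  have ha := continuous_ang
  refine continuous_pi fun i => continuous_pi fun j => ?_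
  have hcc : Continuous fun q : ℝ × ℝ => (((Real.cos (ang q.2)) ^ 2 : ℝ) : ℂ) := by fun_prop
  have hss : Continuous fun q : ℝ × ℝ => (((Real.sin (ang q.2)) ^ 2 : ℝ) : ℂ) := by fun_prop
  fin_cases i <;> fin_cases j
  · refine hcc.congr fun q => ?_
    change _ = prj (gv q.1 q.2) 0 0
    rw [prj_diag, gv, Matrix.cons_val_zero, Complex.norm_real, Real.norm_eq_abs, sq_abs]
  · refine (Complex.continuous_conj.comp continuous_off).congr fun q => ?_
    change _ = prj (gv q.1 q.2) 0 1
    simp only [Function.comp, prj, gv, Matrix.cons_val_zero, Matrix.cons_val_one, map_mul,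
      Complex.conj_ofReal, Complex.ofReal_mul]
    ring
  · refine continuous_off.congr fun q => ?_
    change _ = prj (gv q.1 q.2) 1 0
    simp only [prj, gv, Matrix.cons_val_zero, Matrix.cons_val_one,
      Complex.conj_ofReal, Complex.ofReal_mul]
    ring
  · refine hss.congr fun q => ?_
    change _ = prj (gv q.1 q.2) 1 1
    rw [prj_diag, gv, Matrix.cons_val_one, Matrix.cons_val_zero, norm_mul, norm_pha, one_mul,
      Complex.norm_real, Real.norm_eq_abs, sq_abs]

theorem ang_zero : ang 0 = 0 := by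
  have : min (0 : ℝ) (1 - 0) = 0 := by norm_num
  rw [ang, this, mul_zero]

theorem ang_one : ang 1 = 0 := by
  have : min (1 : ℝ) (1 - 1) = 0 := by norm_num
  rw [ang, this, mul_zero]

theorem gv_zero (t : ℝ) : gv t 0 = ![1, 0] := by
  simp [gv, ang_zero]

theorem gv_one (t : ℝ) : gv t 1 = ![1, 0] := by
  simp [gv, ang_one]

theorem gam_zero (t : ℝ) : gam t 0 = gam 0 0 := Subtype.ext (by
  rw [gam_val, gam_val, gv_zero, gv_zero])

theorem gam_one (t : ℝ) : gam t 1 = gam 0 0 := Subtype.ext (by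
  rw [gam_val, gam_val, gv_one, gv_zero])

theorem gam_per (u : ℝ) : gam 1 u = gam 0 u := by
  have h : pha 1 u = pha 0 u := by
    unfold pha
    split_ifs
    · rfl
    · rw [mul_one, mul_zero]
      push_cast
      rw [Complex.exp_two_pi_mul_I, zero_mul, Complex.exp_zero]
  refine Subtype.ext ?_
  rw [gam_val, gam_val, gv, gv, h]

/-! ### The images by the power map -/

/-- vectors of the samples -/
noncomputable def pv (K d : ℕ) (t u : ℝ) : Fin (K + 2) → ℂ := powVec K d (gv t u)

theorem ns_pv_pos (K d : ℕ) (t u : ℝ) : 0 < ns (pv K d t u) := ns_powVec_pos K d (ns_gv t u)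

theorem powMap_gam (K d : ℕ) (t u : ℝ) : (powMap K d (gam t u)).1 = npr (pv K d t u) := by
  change powMat K d (prj (gv t u)) = _
  rw [powMat_prj]
  rfl

theorem ip_powVec (K d : ℕ) (v w : Fin 2 → ℂ) :
    ip (powVec K d v) (powVec K d w) = (conj (v 0) * w 0) ^ d + (conj (v 1) * w 1) ^ d := by
  have h01 : (1 : Fin (K + 2)) ≠ 0 := by
    simp
  have h := Finset.sum_eq_add (s := Finset.univ)
    (f := fun i => conj (powVec K d v i) * powVec K d w i)
    (0 : Fin (K + 2)) 1 h01.symm (fun i _ hi => by simp [powVec, hi.1, hi.2])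
    (fun h => absurd (Finset.mem_univ _) h) (fun h => absurd (Finset.mem_univ _) h)
  rw [ip, h]
  simp only [powVec, if_true, h01, if_false, map_pow, mul_pow]

theorem ip_pv (K d : ℕ) (t u u' : ℝ) :
    ip (pv K d t u) (pv K d t u') =
      ((Real.cos (ang u) * Real.cos (ang u')) ^ d : ℝ) +
      (conj (pha t u) * pha t u') ^ d * ((Real.sin (ang u) * Real.sin (ang u')) ^ d : ℝ) := by
  rw [pv, pv, ip_powVec]
  simp only [gv, Matrix.cons_val_zero, Matrix.cons_val_one, map_mul, Complex.conj_ofReal]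
  push_cast
  ring

theorem pos_of_same {a b : ℝ} (ha : a ∈ Icc 0 (Real.pi / 2)) (hb : b ∈ Icc 0 (Real.pi / 2))
    (hab : |a - b| < Real.pi / 2) (d : ℕ) :
    0 < (Real.cos a * Real.cos b) ^ d + (Real.sin a * Real.sin b) ^ d := by
  have hpi := Real.pi_pos
  have c1 : 0 ≤ Real.cos a := Real.cos_nonneg_of_mem_Icc ⟨by linarith [ha.1], ha.2⟩
  have c2 : 0 ≤ Real.cos b := Real.cos_nonneg_of_mem_Icc ⟨by linarith [hb.1], hb.2⟩
  have s1 : 0 ≤ Real.sin a := Real.sin_nonneg_of_nonneg_of_le_pi ha.1 (by linarith [ha.2])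
  have s2 : 0 ≤ Real.sin b := Real.sin_nonneg_of_nonneg_of_le_pi hb.1 (by linarith [hb.2])
  have h : 0 < Real.cos a * Real.cos b + Real.sin a * Real.sin b := by
    rw [← Real.cos_sub]
    have := abs_lt.1 hab
    exact Real.cos_pos_of_mem_Ioo ⟨by linarith [this.1], by linarith [this.2]⟩
  have h1 : 0 ≤ Real.cos a * Real.cos b := mul_nonneg c1 c2
  have h2 : 0 ≤ Real.sin a * Real.sin b := mul_nonneg s1 s2
  rcases h1.lt_or_eq with h3 | h3
  · have := pow_pos h3 d
    have := pow_nonneg h2 d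
    linarith
  · rw [← h3, zero_add] at h
    have := pow_pos h d
    have := pow_nonneg h1 d
    linarith

theorem ang_mem {u : ℝ} (hu : u ∈ Icc (0 : ℝ) 1) : ang u ∈ Icc 0 (Real.pi / 2) := by
  have hpi := Real.pi_pos
  have h1 : 0 ≤ min u (1 - u) := le_min hu.1 (by linarith [hu.2])
  have h2 : min u (1 - u) ≤ 1 / 2 := by
    rcases le_total u (1 / 2) with h | h
    · exact (min_le_left _ _).trans h
    · exact (min_le_right _ _).trans (by linarith)
  refine ⟨mul_nonneg hpi.le h1, ?_⟩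
  rw [ang]
  nlinarith

theorem abs_ang_sub_le (u u' : ℝ) : |ang u - ang u'| ≤ Real.pi * |u - u'| := by
  have hpi := Real.pi_pos
  rw [ang, ang, ← mul_sub, abs_mul, abs_of_pos hpi]
  refine mul_le_mul_of_nonneg_left ?_ hpi.le
  refine (abs_min_sub_min_le_max _ _ _ _).trans (max_le le_rfl ?_)
  rw [show 1 - u - (1 - u') = -(u - u') by ring, abs_neg]

/-- The phase of the product of consecutive samples when both are on the same side. -/
theorem phs_same {K d : ℕ} {t u u' : ℝ} (hu : u ∈ Icc (0 : ℝ) 1) (hu' : u' ∈ Icc (0 : ℝ) 1)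
    (hd : |u - u'| < 1 / 2) (hp : pha t u = pha t u') :
    ip (pv K d t u) (pv K d t u') ≠ 0 ∧ phs (ip (pv K d t u) (pv K d t u')) = 1 := by
  have hpi := Real.pi_pos
  have h1 : ip (pv K d t u) (pv K d t u') =
      (((Real.cos (ang u) * Real.cos (ang u')) ^ d +
        (Real.sin (ang u) * Real.sin (ang u')) ^ d : ℝ) : ℂ) := by
    rw [ip_pv, hp, conj_mul_self_of_norm (norm_pha _ _), one_pow, one_mul]
    push_cast
    rfl
  have h2 := pos_of_same (ang_mem hu) (ang_mem hu') ((abs_ang_sub_le u u').trans_lt (by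
    nlinarith)) d
  rw [h1]
  exact ⟨by exact_mod_cast h2.ne', phs_ofReal h2⟩

/-- The phase of the product from the south pole to a later sample. -/
theorem phs_mid {K d : ℕ} (hd : d ≠ 0) {t u : ℝ} (hu : 1 / 2 < u) (hu' : u < 1) :
    ip (pv K d t (1 / 2)) (pv K d t u) ≠ 0 ∧
      phs (ip (pv K d t (1 / 2)) (pv K d t u)) =
        Complex.exp ((2 * Real.pi * t : ℝ) * Complex.I) ^ d := by
  have hpi := Real.pi_pos
  have hs : 0 < Real.sin (ang u) := by
    have h1 : ang u = Real.pi * (1 - u) := by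
      rw [ang, min_eq_right (by linarith)]
    rw [h1]
    exact Real.sin_pos_of_pos_of_lt_pi (by nlinarith) (by nlinarith)
  have h1 : ip (pv K d t (1 / 2)) (pv K d t u) =
      Complex.exp ((2 * Real.pi * t : ℝ) * Complex.I) ^ d * ((Real.sin (ang u) ^ d : ℝ) : ℂ) := by
    rw [ip_pv, ang_half, Real.cos_pi_div_two, Real.sin_pi_div_two, zero_mul, one_mul,
      zero_pow hd, Complex.ofReal_zero, zero_add, pha, if_pos le_rfl, map_one, one_mul, pha,
      if_neg (not_le.2 hu)]
  have h2 : ((Real.sin (ang u) ^ d : ℝ) : ℂ) ≠ 0 := by exact_mod_cast (pow_pos hs d).ne'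
  have h3 : Complex.exp ((2 * Real.pi * t : ℝ) * Complex.I) ^ d ≠ 0 :=
    pow_ne_zero _ (Complex.exp_ne_zero _)
  rw [h1]
  refine ⟨mul_ne_zero h3 h2, ?_⟩
  rw [phs_mul h3 h2, phs_ofReal (pow_pos hs d), mul_one, phs_of_ne h3, norm_pow,
    Complex.norm_exp_ofReal_mul_I, one_pow, Complex.ofReal_one, div_one]

/-- The product of the kernel along the `2m` samples of the image of `gam t` by `powMap K d`. -/
theorem bp_std (K : ℕ) {d m : ℕ} (hd : d ≠ 0) (hm : 2 ≤ m) (t : ℝ) :
    bp kap (2 * m) (fun i => powMap K d (gam t ((i : ℝ) / ((2 * m : ℕ) : ℝ)))) =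
      Complex.exp ((2 * Real.pi * t : ℝ) * Complex.I) ^ d := by
  have hm0 : (0 : ℝ) < ((2 * m : ℕ) : ℝ) := by positivity
  have hm2 : (2 : ℝ) ≤ m := by exact_mod_cast hm
  have hmc : ((2 * m : ℕ) : ℝ) = 2 * m := by push_cast; ring
  have hhalf : (m : ℝ) / ((2 * m : ℕ) : ℝ) = 1 / 2 := by
    rw [hmc]; field_simp
  have hmem : ∀ i : ℕ, i ≤ 2 * m → (i : ℝ) / ((2 * m : ℕ) : ℝ) ∈ Icc (0 : ℝ) 1 := fun i hi =>
    ⟨by positivity, by rw [div_le_one hm0]; exact_mod_cast hi⟩
  have hstep : ∀ i : ℕ, |(i : ℝ) / ((2 * m : ℕ) : ℝ) - ((i + 1 : ℕ) : ℝ) / ((2 * m : ℕ) : ℝ)|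
      < 1 / 2 := by
    intro i
    have e : (i : ℝ) / ((2 * m : ℕ) : ℝ) - ((i + 1 : ℕ) : ℝ) / ((2 * m : ℕ) : ℝ) =
        -(1 / ((2 * m : ℕ) : ℝ)) := by push_cast; ring
    rw [e, abs_neg, abs_of_pos (by positivity), hmc]
    rw [div_lt_div_iff₀ (by linarith) two_pos]
    linarith
  have hle : ∀ i : ℕ, (i : ℝ) / ((2 * m : ℕ) : ℝ) ≤ 1 / 2 ↔ i ≤ m := by
    intro i
    rw [← hhalf, div_le_div_iff_of_pos_right hm0]
    exact Nat.cast_le
  have hpha1 : ∀ i : ℕ, i ≤ m → pha t ((i : ℝ) / ((2 * m : ℕ) : ℝ)) = 1 := fun i hi => by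
    rw [pha, if_pos ((hle i).2 hi)]
  have hpha2 : ∀ i : ℕ, m < i → pha t ((i : ℝ) / ((2 * m : ℕ) : ℝ)) =
      Complex.exp ((2 * Real.pi * t : ℝ) * Complex.I) := fun i hi => by
    rw [pha, if_neg (fun h => absurd ((hle i).1 h) (by omega))]
  have key : ∀ i < 2 * m, ip (pv K d t ((i : ℝ) / ((2 * m : ℕ) : ℝ)))
        (pv K d t (((i + 1 : ℕ) : ℝ) / ((2 * m : ℕ) : ℝ))) ≠ 0 ∧
      phs (ip (pv K d t ((i : ℝ) / ((2 * m : ℕ) : ℝ)))
        (pv K d t (((i + 1 : ℕ) : ℝ) / ((2 * m : ℕ) : ℝ)))) =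
        if i = m then Complex.exp ((2 * Real.pi * t : ℝ) * Complex.I) ^ d else 1 := by
    intro i hi
    by_cases him : i = m
    · subst him
      rw [if_pos rfl, hhalf]
      refine phs_mid hd ?_ ?_
      · rw [← hhalf]
        exact div_lt_div_of_pos_right (by push_cast; linarith) hm0
      · rw [div_lt_one hm0]
        exact_mod_cast (by omega : i + 1 < 2 * i)
    · rw [if_neg him]
      refine phs_same (hmem i hi.le) (hmem (i + 1) hi) (hstep i) ?_
      rcases lt_or_gt_of_ne him with h | h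
      · rw [hpha1 i h.le, hpha1 (i + 1) h]
      · rw [hpha2 i h, hpha2 (i + 1) (by omega)]
  rw [bp_kap_eq (v := fun i => pv K d t ((i : ℝ) / ((2 * m : ℕ) : ℝ)))
    (fun i _ => ns_pv_pos _ _ _ _) (fun i _ => powMap_gam _ _ _ _) ?_ (fun i hi => (key i hi).1),
    Finset.prod_congr rfl (fun i hi => (key i (Finset.mem_range.1 hi)).2),
    Finset.prod_ite_eq' (Finset.range (2 * m)) m, if_pos (Finset.mem_range.2 (by omega))]
  simp only [pv]
  rw [div_self hm0.ne', Nat.cast_zero, zero_div, gv_one, gv_zero]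

/-- The product of the standard family is odd. -/
theorem par_std (K : ℕ) {d m : ℕ} (hd : Odd d) (hm : 2 ≤ m) :
    Par (-1) (fun t => bp kap (2 * m)
      (fun i => powMap K d (gam t ((i : ℝ) / ((2 * m : ℕ) : ℝ))))) := by
  refine ⟨fun t => Complex.exp ((Real.pi * t : ℝ) * Complex.I) ^ d, ?_, fun t _ => ?_, ?_⟩
  · fun_prop
  · beta_reduce
    rw [bp_std K hd.pos.ne' hm t, ← pow_mul, mul_comm d 2, pow_mul, ← Complex.exp_nat_mul]
    congr 2
    push_cast
    ring
  · beta_reduce
    rw [mul_one, mul_zero, Complex.ofReal_zero, zero_mul, Complex.exp_zero, one_pow, mul_one,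
      Complex.exp_pi_mul_I, hd.neg_one_pow]

end Vale.Agent.P216.H288
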