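import Vale.Agent.P216.H288.SweepCP
import Vale.Agent.P216.H288.Std

/-!
# The sweep for a map of odd degree to complex projective space (P216, Theorem A)
-/

namespace Vale.Agent.P216.H288

open Set Filter Topology
open Vale.Agent.P216.L250 Vale.Agent.P216.LS Vale.Agent.P216.H391 Vale.Agent.P216.Ker923
open Vale.Agent.P216.H826

theorem stdFam (K : ℕ) {d : ℕ} (hd : Odd d) : StdFam K d gam where
  cont := continuous_gam.continuousOn
  zero τ _ := gam_zero τ
  one τ _ := gam_one τ
  per t _ := gam_per t
  par _ hm := par_std K hd hm

/-- **The sweep.** For `M` compact, connected, with unique short segments, a map `Φ` to complex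
projective space and a sphere `f` on which `Φ` has odd degree, there is a holonomy structure for
which every point is the base point of a loop of loops with odd holonomy. -/
theorem exists_hol_sweep {M : Type*} [MetricSpace M] [CompactSpace M] [PreconnectedSpace M]
    {ρ : ℝ} (hρ : 0 < ρ) (hU : UniqSeg M ρ) {K d : ℕ} (hd : Odd d) (Φ : C(M, CPn (K + 1)))
    (f : C(CPn 1, M)) (hf : (Φ.comp f).Homotopic (powMap K d)) :
    ∃ H : Hol M, ∀ x₀ : M, ∃ b w μ, IsSweep H x₀ b w μ :=
  exists_hol_sweep_of_std hρ hU (stdFam K hd) Φ f hf

end Vale.Agent.P216.H288
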