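import Vale.Agent.P216.H288.SweepHtpy
import Vale.Agent.P216.A215.Stmt
import Vale.Agent.P216.Ker923.Approx

/-!
# Sweeps from a map to complex projective space (P216, Theorem A)
-/

namespace Vale.Agent.P216.H288

open Set Filter Topology
open Vale.Agent.P216.L250 Vale.Agent.P216.LS Vale.Agent.P216.H391 Vale.Agent.P216.Ker923
open Vale.Agent.P216.H826

/-- A standard family of based loops of `ℂP^1`, closed in the parameter, whose images under
`powMap K d` have odd parity. -/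
structure StdFam (K d : ℕ) (gam : ℝ → ℝ → CPn 1) : Prop where
  cont : ContinuousOn (fun q : ℝ × ℝ => gam q.1 q.2) (Icc 0 1 ×ˢ Icc 0 1)
  zero : ∀ τ ∈ Icc (0 : ℝ) 1, gam τ 0 = gam 0 0
  one : ∀ τ ∈ Icc (0 : ℝ) 1, gam τ 1 = gam 0 0
  per : ∀ t ∈ Icc (0 : ℝ) 1, gam 1 t = gam 0 t
  par : ∀ m : ℕ, 2 ≤ m → Par (-1) (fun τ =>
    bp (kap (N := K + 2)) (2 * m) (fun i => powMap K d (gam τ ((i : ℝ) / ((2 * m : ℕ) : ℝ)))))

/-- **The sweep**, for a map `Φ` which is of odd degree on some sphere. -/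
theorem exists_hol_sweep_of_std {M : Type*} [MetricSpace M] [CompactSpace M]
    [PreconnectedSpace M] {ρ : ℝ} (hρ : 0 < ρ) (hU : UniqSeg M ρ) {K d : ℕ}
    {gam : ℝ → ℝ → CPn 1} (hgam : StdFam K d gam) (Φ : C(M, CPn (K + 1))) (f : C(CPn 1, M))
    (hf : (Φ.comp f).Homotopic (powMap K d)) :
    ∃ H : Hol M, ∀ x₀ : M, ∃ b w μ, IsSweep H x₀ b w μ := by
  obtain ⟨F⟩ := hf
  have hκ := ker_kap (K + 2)
  obtain ⟨r₀, hr₀pos, hr₀, hA⟩ := exists_radius hκ
  obtain ⟨Ψ, L, hL, hΨ, hc⟩ := exists_lipschitz_approx' (N := K + 2) Φ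
    (show 0 < r₀ / 4 by positivity)
  have h := ker_pull hκ (F := Ψ) hL hΨ
  refine ⟨h.toHol, ?_⟩
  have h0 : (0 : ℝ) ∈ Icc (0 : ℝ) 1 := left_mem_Icc.2 zero_le_one
  have h1 : (1 : ℝ) ∈ Icc (0 : ℝ) 1 := right_mem_Icc.2 zero_le_one
  obtain ⟨b, hb, w, lam, hw⟩ := exists_weakSweep_of_homotopy (κ := kap (N := K + 2)) hκ hρ hU
    (g := fun τ t => f (gam τ t)) (x₀ := f (gam 0 0)) (Φ := Φ)
    (G := fun s τ t => F (projIcc 0 1 zero_le_one s, gam τ t))
    (f.continuous.comp_continuousOn hgam.cont)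
    (fun τ hτ => by simp only [hgam.zero τ hτ, hgam.one τ hτ])
    (fun τ hτ => by simp only [hgam.zero τ hτ])
    (fun t ht => by simp only [hgam.per t ht])
    (by
      refine F.continuous.comp_continuousOn (ContinuousOn.prodMk ?_ ?_)
      · exact (continuous_projIcc.comp (by fun_prop)).continuousOn
      · exact hgam.cont.comp (f := fun q : (ℝ × ℝ) × ℝ => (q.1.2, q.2)) (by fun_prop)
          fun q hq => ⟨hq.1.2, hq.2⟩)
    (fun s _ τ hτ => by simp only [hgam.zero τ hτ, hgam.one τ hτ])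
    (fun s _ t ht => by simp only [hgam.per t ht])
    (fun τ _ t _ => by
      simp only [projIcc_left]
      exact F.apply_zero _)
    (fun m hm => by
      refine (hgam.par m hm).congr fun τ _ => bp_congr fun i _ => ?_
      simp only [projIcc_right]
      exact (F.apply_one _).symm)
    hr₀pos hr₀ hA hL hΨ hc h
  exact hw.exists_sweep_all hρ hU hb

end Vale.Agent.P216.H288
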