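import Vale.Agent.P216.H288.Wind
import Vale.Agent.P216.L250.SweepAll

/-!
# From the parity of a family of polygons to a sweep (P216, Theorem A)
-/

namespace Vale.Agent.P216.H288

open Set Filter Topology
open Vale.Agent.P216.L250 Vale.Agent.P216.LS

variable {M : Type*} [MetricSpace M] {Y : Type*} [MetricSpace Y] {κ : Y → Y → ℂ} {A r : ℝ}

/-! ### Polygons with short steps, not necessarily of small energy -/

section Loops

variable {N : ℕ} [NeZero N] {ρ : ℝ}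

theorem fn_itpL' (h : UniqSeg M ρ) {x : ZMod N → M} (hx : ∀ i, dist (x i) (x (i + 1)) < ρ)
    (t : ℝ) : fn (itpL x) t = itp x t := by
  have h1 := HasE.continuous' (hasE_itp h hx)
  rw [itpL, dif_pos h1, fn_ofFn]

theorem itpL_mem' (h : UniqSeg M ρ) {x : ZMod N → M}
    (hx : ∀ i, dist (x i) (x (i + 1)) < ρ) : itpL x ∈ XE M (N * ρ) := by
  have h1 : fn (itpL x) = itp x := funext (fn_itpL' h hx)
  rw [mem_XE, h1]
  refine (hasE_itp h hx).mono ?_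
  rw [E]
  have h2 : ∑ i, dist (x i) (x (i + 1)) ^ 2 ≤ ∑ _i : ZMod N, ρ ^ 2 :=
    Finset.sum_le_sum fun i _ => pow_le_pow_left₀ dist_nonneg (hx i).le 2
  rw [Finset.sum_const, Finset.card_univ, ZMod.card, nsmul_eq_mul] at h2
  have h3 : (0 : ℝ) ≤ N := Nat.cast_nonneg _
  calc (N : ℝ) * ∑ i, dist (x i) (x (i + 1)) ^ 2 ≤ N * (N * ρ ^ 2) := by gcongr
    _ = (N * ρ) ^ 2 := by ring

omit [MetricSpace M] in
theorem sample_nat {g : ℝ → M} (hg : g 1 = g 0) {n : ℕ} (hn : n ≤ N) :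
    sample N g (n : ZMod N) = g ((n : ℝ) / N) := by
  rcases hn.eq_or_lt with rfl | h1
  · have : (n : ℝ) ≠ 0 := Nat.cast_ne_zero.2 (NeZero.ne n)
    rw [sample, ZMod.natCast_self, ZMod.val_zero, Nat.cast_zero, zero_div, div_self this, hg]
  · rw [sample, ZMod.val_natCast_of_lt h1]

theorem sample_step {g : ℝ → M} (hg : g 1 = g 0) {σ : ℝ}
    (hs : ∀ i < N, dist (g ((i : ℝ) / N)) (g (((i + 1 : ℕ) : ℝ) / N)) < σ) (i : ZMod N) :
    dist (sample N g i) (sample N g (i + 1)) < σ := by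
  obtain ⟨n, hn, rfl⟩ : ∃ n : ℕ, n < N ∧ (n : ZMod N) = i :=
    ⟨i.val, ZMod.val_lt i, ZMod.natCast_zmod_val i⟩
  have h1 : ((n : ZMod N) + 1) = ((n + 1 : ℕ) : ZMod N) := by push_cast; rfl
  rw [h1, sample_nat hg hn.le, sample_nat hg hn]
  exact hs n hn

theorem continuousOn_itpL' [CompactSpace M] (h : UniqSeg M ρ) (hρ : 0 < ρ) {T : Type*}
    [TopologicalSpace T] {S : Set T} {x : T → ZMod N → M} (hc : ∀ i, ContinuousOn (fun a => x a i) S)
    (hx : ∀ a ∈ S, ∀ i, dist (x a i) (x a (i + 1)) < ρ) :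
    ContinuousOn (fun a => itpL (x a)) S := by
  have h0 : (0 : ℝ) ≤ N * ρ := by positivity
  refine continuousOn_of_pointwise h0 (fun a ha => itpL_mem' h (hx a ha)) fun t => ?_
  obtain ⟨n, u, hu, rfl⟩ := exists_eq_div N t
  have h1 : ContinuousOn (fun a => seg (x a n) (x a (n + 1)) u) S :=
    ContinuousOn.seg h (hc _) (hc _) continuousOn_const (fun a ha => hx a ha _) fun _ _ => hu
  refine h1.congr fun a ha => ?_
  rw [fn_itpL' h (hx a ha), itp_apply _ n hu]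

/-- The point at time `j / (N q)` of the broken geodesic. -/
theorem itp_fine {g : ℝ → M} (hg : g 1 = g 0) {q : ℕ} (hq : 0 < q) {j : ℕ} (hj : j < N * q) {v : ℝ}
    (hv : v ∈ Icc (0 : ℝ) 1) :
    itp (sample N g) (((j : ℝ) + v) / ((N * q : ℕ) : ℝ)) =
      seg (g (((j / q : ℕ) : ℝ) / N)) (g (((j / q + 1 : ℕ) : ℝ) / N)) (((j % q : ℕ) + v) / q) := by
  have hq' : (0 : ℝ) < q := Nat.cast_pos.2 hq
  have hN : (0 : ℝ) < N := Nat.cast_pos.2 (NeZero.pos N)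
  have h1 : j / q < N := (Nat.div_lt_iff_lt_mul hq).2 hj
  have h2 : (j : ℝ) = (j / q : ℕ) * q + (j % q : ℕ) := by
    have := Nat.div_add_mod j q
    have h3 : ((q * (j / q) + j % q : ℕ) : ℝ) = j := by exact_mod_cast this
    push_cast at h3 ⊢
    linarith
  have h3 : ((j : ℝ) + v) / ((N * q : ℕ) : ℝ) =
      ((((j / q : ℕ) : ℤ) : ℝ) + ((j % q : ℕ) + v) / q) / N := by
    rw [h2, Int.cast_natCast]
    generalize j / q = a
    generalize j % q = c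
    push_cast
    field_simp
    ring
  have h4 : (((j % q : ℕ) : ℝ) + v) / q ∈ Icc (0 : ℝ) 1 := by
    refine ⟨div_nonneg (add_nonneg (Nat.cast_nonneg _) hv.1) hq'.le, ?_⟩
    rw [div_le_one hq']
    have h5 : ((j % q + 1 : ℕ) : ℝ) ≤ q := by exact_mod_cast Nat.mod_lt j hq
    push_cast at h5
    linarith [hv.2]
  rw [h3, itp_apply _ _ h4]
  have h5 : (((j / q : ℕ) : ℤ) : ZMod N) = ((j / q : ℕ) : ZMod N) := Int.cast_natCast _
  have h6 : ((j / q : ℕ) : ZMod N) + 1 = ((j / q + 1 : ℕ) : ZMod N) := (Nat.cast_succ _).symm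
  rw [h5, h6, sample_nat hg h1.le, sample_nat hg h1]

end Loops

/-! ### From polygons to loops -/

variable [CompactSpace M]

/-- A family of loops in `M`, closed in the parameter, whose polygons have odd parity, gives a
sweep. -/
theorem exists_weakSweep_of_par (hκ : Ker κ A r) {ρ : ℝ} (hρ : 0 < ρ) (hU : UniqSeg M ρ)
    {g : ℝ → ℝ → M} {x₀ : M}
    (hg : ContinuousOn (fun q : ℝ × ℝ => g q.1 q.2) (Icc 0 1 ×ˢ Icc 0 1))
    (hg1 : ∀ τ ∈ Icc (0 : ℝ) 1, g τ 1 = g τ 0) (hg0 : ∀ τ ∈ Icc (0 : ℝ) 1, g τ 0 = x₀)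
    (hgp : ∀ t ∈ Icc (0 : ℝ) 1, g 1 t = g 0 t) {Ψ : M → Y} {L : ℝ} (hL : 0 < L)
    (hΨ : ∀ x y, dist (Ψ x) (Ψ y) ≤ L * dist x y) {r₀ : ℝ} (hr₀ : r₀ ≤ r)
    (hA : 2 * A * r₀ ^ 2 < 1) {N : ℕ} (hN : 0 < N)
    (hs1 : ∀ τ ∈ Icc (0 : ℝ) 1, ∀ i < N, dist (g τ ((i : ℝ) / N)) (g τ (((i + 1 : ℕ) : ℝ) / N)) < ρ)
    (hs2 : ∀ τ ∈ Icc (0 : ℝ) 1, ∀ i < N,
      L * dist (g τ ((i : ℝ) / N)) (g τ (((i + 1 : ℕ) : ℝ) / N)) < r₀)
    (hp : Par (-1) (fun τ => bp κ N (fun i => Ψ (g τ ((i : ℝ) / N)))))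
    {A' r' : ℝ} (h : Ker (fun x y => κ (Ψ x) (Ψ y)) A' r') :
    ∃ b : ℝ, 0 ≤ b ∧ ∃ w lam, WeakSweep h.toHol x₀ b w lam := by
  have : NeZero N := ⟨hN.ne'⟩
  have hN' : (0 : ℝ) < N := Nat.cast_pos.2 hN
  have hΨc : Continuous Ψ := by
    refine (LipschitzWith.of_dist_le_mul (K := ⟨L, hL.le⟩) fun x y => ?_).continuous
    exact hΨ x y
  have hmem : ∀ i : ℕ, i ≤ N → (i : ℝ) / N ∈ Icc (0 : ℝ) 1 := fun i hi =>
    ⟨by positivity, (div_le_one hN').2 (by exact_mod_cast hi)⟩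
  have hgc : ∀ t ∈ Icc (0 : ℝ) 1, ContinuousOn (fun τ => g τ t) (Icc 0 1) := fun t ht =>
    hg.comp (f := fun τ : ℝ => (τ, t)) (by fun_prop) fun τ hτ => ⟨hτ, ht⟩
  have hstep : ∀ τ ∈ Icc (0 : ℝ) 1, ∀ i, dist (sample N (g τ) i) (sample N (g τ) (i + 1)) < ρ :=
    fun τ hτ => sample_step (hg1 τ hτ) (hs1 τ hτ)
  let w : ℝ → LM M := fun τ => itpL (sample N (g τ))
  have hwc : ContinuousOn w (Icc 0 1) := by
    refine continuousOn_itpL' hU hρ (fun i => ?_) hstep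
    exact hgc _ (hmem _ (ZMod.val_lt i).le)
  have hwm : ∀ τ ∈ Icc (0 : ℝ) 1, w τ ∈ XE M (N * ρ) := fun τ hτ => itpL_mem' hU (hstep τ hτ)
  have hb : (0 : ℝ) ≤ N * ρ := by positivity
  have h0 : (0 : ℝ) ∈ Icc (0 : ℝ) 1 := left_mem_Icc.2 zero_le_one
  have h1 : (1 : ℝ) ∈ Icc (0 : ℝ) 1 := right_mem_Icc.2 zero_le_one
  have hwp : w 1 = w 0 := by
    have : sample N (g 1) = sample N (g 0) := by
      ext i
      exact hgp _ (hmem _ (ZMod.val_lt i).le)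
    simp only [w, this]
  have hwf : ∀ τ ∈ Icc (0 : ℝ) 1, ∀ t, fn (w τ) t = itp (sample N (g τ)) t := fun τ hτ t =>
    fn_itpL' hU (hstep τ hτ) t
  -- choice of the refinement
  obtain ⟨q, hq⟩ := exists_nat_gt (max 1 (max ((N * ρ) ^ 2 / r' ^ 2) (A' * (N * ρ) ^ 2)))
  have hq1 : (1 : ℝ) < q := (le_max_left _ _).trans_lt hq
  have hq2 : (N * ρ) ^ 2 / r' ^ 2 < q := ((le_max_left _ _).trans (le_max_right _ _)).trans_lt hq
  have hq3 : A' * (N * ρ) ^ 2 < q := ((le_max_right _ _).trans (le_max_right _ _)).trans_lt hq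
  have hq0 : 0 < q := by
    have : (0 : ℝ) < q := by linarith
    exact_mod_cast this
  have hq0' : (0 : ℝ) < q := Nat.cast_pos.2 hq0
  have hNq : 0 < N * q := Nat.mul_pos hN hq0
  have hN1 : (1 : ℝ) ≤ N := by exact_mod_cast hN
  have hqN : (q : ℝ) ≤ ((N * q : ℕ) : ℝ) := by push_cast; nlinarith
  -- the two families
  let P : ℝ → ℕ → Y := fun τ j => Ψ (fn (w τ) ((j : ℝ) / ((N * q : ℕ) : ℝ)))
  let Q : ℝ → ℕ → Y := fun τ j => Ψ (g τ (((j / q : ℕ) : ℝ) / N))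
  have hdiv : ∀ j, j < N * q → j / q < N := fun j hj => (Nat.div_lt_iff_lt_mul hq0).2 hj
  have hdiv' : ∀ j, j ≤ N * q → j / q ≤ N := fun j hj => by
    calc j / q ≤ N * q / q := Nat.div_le_div_right hj
      _ = N := Nat.mul_div_cancel _ hq0
  have hr₀pos : 0 < r₀ := lt_of_le_of_lt (by positivity) (hs2 0 h0 0 hN)
  -- distances on one segment
  have hseg : ∀ τ ∈ Icc (0 : ℝ) 1, ∀ i < N, ∀ u ∈ Icc (0 : ℝ) 1, ∀ v ∈ Icc (0 : ℝ) 1,
      dist (Ψ (seg (g τ ((i : ℝ) / N)) (g τ (((i + 1 : ℕ) : ℝ) / N)) u))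
        (Ψ (seg (g τ ((i : ℝ) / N)) (g τ (((i + 1 : ℕ) : ℝ) / N)) v)) < r₀ := by
    intro τ hτ i hi u hu v hv
    refine (hΨ _ _).trans_lt (lt_of_le_of_lt ?_ (hs2 τ hτ i hi))
    gcongr
    rw [dist_seg_seg hU (hs1 τ hτ i hi) hu hv]
    refine mul_le_of_le_one_left dist_nonneg ?_
    rw [abs_le]
    constructor <;> linarith [hu.1, hu.2, hv.1, hv.2]
  have hfr : ∀ j : ℕ, ∀ v ∈ Icc (0 : ℝ) 1, (((j % q : ℕ) : ℝ) + v) / q ∈ Icc (0 : ℝ) 1 := by
    intro j v hv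
    refine ⟨div_nonneg (add_nonneg (Nat.cast_nonneg _) hv.1) hq0'.le, ?_⟩
    rw [div_le_one hq0']
    have h5 : ((j % q + 1 : ℕ) : ℝ) ≤ q := by exact_mod_cast Nat.mod_lt j hq0
    push_cast at h5
    linarith [hv.2]
  have hPj : ∀ τ ∈ Icc (0 : ℝ) 1, ∀ j, j < N * q → ∀ v ∈ Icc (0 : ℝ) 1,
      fn (w τ) (((j : ℝ) + v) / ((N * q : ℕ) : ℝ)) =
      seg (g τ (((j / q : ℕ) : ℝ) / N)) (g τ (((j / q + 1 : ℕ) : ℝ) / N))
        (((j % q : ℕ) + v) / q) := by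
    intro τ hτ j hj v hv
    rw [hwf τ hτ, itp_fine (hg1 τ hτ) hq0 hj hv]
  have hPl : ∀ τ ∈ Icc (0 : ℝ) 1, P τ (N * q) = P τ 0 := by
    intro τ hτ
    have h2 : ((N * q : ℕ) : ℝ) ≠ 0 := by exact_mod_cast hNq.ne'
    simp only [P]
    rw [div_self h2, Nat.cast_zero, zero_div, fn_one]
  have hFP : IsFam (N * q) r₀ P := by
    refine ⟨fun j hj => ?_, fun τ hτ j hj => ?_, hPl, fun j _ => ?_⟩
    · exact hΨc.comp_continuousOn ((continuous_fn_left _).comp_continuousOn hwc)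
    · have e1 := hPj τ hτ j hj 0 h0
      have e2 := hPj τ hτ j hj 1 h1
      simp only [P]
      rw [add_zero, add_zero] at e1
      rw [Nat.cast_add, Nat.cast_one, e2, e1]
      refine hseg τ hτ _ (hdiv j hj) _ ?_ _ (hfr j 1 h1)
      have := hfr j 0 h0
      rwa [add_zero] at this
    · simp only [P, hwp]
  have hFQ : IsFam (N * q) r₀ Q := by
    refine ⟨fun j hj => ?_, fun τ hτ j hj => ?_, fun τ hτ => ?_, fun j hj => ?_⟩
    · exact hΨc.comp_continuousOn (hgc _ (hmem _ (hdiv' j hj)))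
    · simp only [Q]
      have h2 : (j + 1) / q = j / q ∨ (j + 1) / q = j / q + 1 := by
        rw [Nat.succ_div]
        split_ifs <;> simp
      rcases h2 with h2 | h2
      · rw [h2, dist_self]
        exact hr₀pos
      · rw [h2]
        exact (hΨ _ _).trans_lt (hs2 τ hτ _ (hdiv j hj))
    · simp only [Q]
      rw [Nat.mul_div_cancel _ hq0, Nat.zero_div, Nat.cast_zero, zero_div, div_self hN'.ne',
        hg1 τ hτ]
    · simp only [Q]
      rw [hgp _ (hmem _ (hdiv' j hj))]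
  have hd : ∀ τ ∈ Icc (0 : ℝ) 1, ∀ j ≤ N * q, dist (P τ j) (Q τ j) < r₀ := by
    intro τ hτ j hj
    rcases hj.eq_or_lt with rfl | hj
    · rw [hPl τ hτ, hFQ.closed τ hτ]
      have e1 := hPj τ hτ 0 hNq 0 h0
      simp only [P, Q]
      rw [add_zero, Nat.zero_mod, Nat.cast_zero, add_zero, zero_div, zero_div, seg_zero,
        Nat.zero_div, Nat.cast_zero, zero_div] at e1
      rw [Nat.cast_zero, zero_div, e1, Nat.zero_div, Nat.cast_zero, zero_div, dist_self]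
      exact hr₀pos
    · have e1 := hPj τ hτ j hj 0 h0
      rw [add_zero, add_zero] at e1
      simp only [P, Q]
      rw [e1]
      have h2 := hseg τ hτ _ (hdiv j hj) _ (hfr j 0 h0) 0 h0
      rw [seg_zero, add_zero] at h2
      exact h2
  have hPQ : Par (-1) (fun τ => bp κ (N * q) (P τ)) := by
    refine hFP.close hκ hr₀ hA hFQ hd ?_
    refine hp.congr fun τ hτ => ?_
    exact (bp_repeat hκ hq0 N fun i => Ψ (g τ ((i : ℝ) / N))).symm
  -- the holonomy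
  have hrr : (N * ρ) ^ 2 < ((N * q : ℕ) : ℝ) * r' ^ 2 := by
    have h2 : 0 < r' ^ 2 := pow_pos h.r_pos 2
    rw [div_lt_iff₀ h2] at hq2
    refine hq2.trans_le ?_
    gcongr
  have hhol : Par (-1) (fun τ => hol (fun x y => κ (Ψ x) (Ψ y)) (w τ)) := by
    refine Par.of_close ((h.continuousOn_hol _).comp hwc hwm) ((hFP.mono hr₀).continuousOn_bp hκ)
      (fun τ _ => norm_bp hκ _ _) (by rw [hwp]) (bp_congr (hFP.per)) (fun τ hτ => ?_) hPQ
    refine (hol_near_bp h (hwm τ hτ) hNq hrr).trans_lt ?_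
    rw [← mul_div_assoc, div_lt_one (by exact_mod_cast hNq)]
    exact hq3.trans_le hqN
  obtain ⟨lam, l1, l2, l3⟩ := hhol
  refine ⟨N * ρ, hb, w, lam, hwc, fun τ hτ => ?_, hwm, hwp, l1, fun τ hτ => ?_, ?_⟩
  · rw [hwf τ hτ]
    have h2 := itp_int (sample N (g τ)) 0
    rw [Int.cast_zero, zero_div] at h2
    rw [h2, Int.cast_zero, sample, ZMod.val_zero, Nat.cast_zero, zero_div, hg0 τ hτ]
  · rw [l2 τ hτ, h.toHol_hol (finE_of_mem (hwm τ hτ))]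
  · rw [l3]; ring

end Vale.Agent.P216.H288
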