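import Vale.Agent.P216.H288.Sweep

/-!
# Sweeps from a homotopy to a standard family (P216, Theorem A)
-/

namespace Vale.Agent.P216.H288

open Set Filter Topology
open Vale.Agent.P216.L250 Vale.Agent.P216.LS

variable {M : Type*} [MetricSpace M] {Y : Type*} [MetricSpace Y] {κ : Y → Y → ℂ} {A r : ℝ}

/-- Uniform steps of a family, continuous on a compact set times `[0, 1]`. -/
theorem exists_fine {T : Type*} [PseudoMetricSpace T] {S : Set T} (hS : IsCompact S)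
    {Z : Type*} [PseudoMetricSpace Z] {F : T → ℝ → Z}
    (hF : ContinuousOn (fun q : T × ℝ => F q.1 q.2) (S ×ˢ Icc 0 1)) {ε : ℝ} (hε : 0 < ε) :
    ∃ n₀ : ℕ, ∀ n : ℕ, n₀ ≤ n → ∀ a ∈ S, ∀ i < n,
      dist (F a ((i : ℝ) / n)) (F a (((i + 1 : ℕ) : ℝ) / n)) < ε := by
  have hu := (hS.prod isCompact_Icc).uniformContinuousOn_of_continuous hF
  rw [Metric.uniformContinuousOn_iff] at hu
  obtain ⟨δ, hδ, H⟩ := hu ε hε
  obtain ⟨n₀, hn₀⟩ := exists_nat_gt (1 / δ)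
  refine ⟨n₀, fun n hn a ha i hi => ?_⟩
  have hn0 : (0 : ℝ) < n := by
    have : 0 < n := by omega
    exact_mod_cast this
  have m0 : (i : ℝ) / n ∈ Icc (0 : ℝ) 1 := ⟨by positivity, by
    rw [div_le_one hn0]; exact_mod_cast hi.le⟩
  have m1 : ((i + 1 : ℕ) : ℝ) / n ∈ Icc (0 : ℝ) 1 := ⟨by positivity, by
    rw [div_le_one hn0]; exact_mod_cast hi⟩
  refine H (a, (i : ℝ) / n) ⟨ha, m0⟩ (a, ((i + 1 : ℕ) : ℝ) / n) ⟨ha, m1⟩ ?_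
  have h2 : (i : ℝ) / n - ((i + 1 : ℕ) : ℝ) / n = -(1 / n) := by push_cast; ring
  rw [Prod.dist_eq, dist_self, Real.dist_eq, h2, abs_neg, abs_of_pos (by positivity)]
  refine max_lt hδ ?_
  rw [div_lt_iff₀ hδ] at hn₀
  rw [div_lt_iff₀ hn0]
  have h3 : (n₀ : ℝ) ≤ n := by exact_mod_cast hn
  nlinarith

/-- **Sweep from a homotopy.** `g` is a family of loops of `M` based at `x₀`, `G` a homotopy from
`Φ ∘ g` to a family all of whose polygons with an even number of vertices have odd parity, `Ψ` a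
Lipschitz approximation of `Φ`. -/
theorem exists_weakSweep_of_homotopy [CompactSpace M] (hκ : Ker κ A r) {ρ : ℝ} (hρ : 0 < ρ)
    (hU : UniqSeg M ρ) {g : ℝ → ℝ → M} {x₀ : M}
    (hg : ContinuousOn (fun q : ℝ × ℝ => g q.1 q.2) (Icc 0 1 ×ˢ Icc 0 1))
    (hg1 : ∀ τ ∈ Icc (0 : ℝ) 1, g τ 1 = g τ 0) (hg0 : ∀ τ ∈ Icc (0 : ℝ) 1, g τ 0 = x₀)
    (hgp : ∀ t ∈ Icc (0 : ℝ) 1, g 1 t = g 0 t) {Φ : M → Y} {G : ℝ → ℝ → ℝ → Y}
    (hG : ContinuousOn (fun q : (ℝ × ℝ) × ℝ => G q.1.1 q.1.2 q.2)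
      ((Icc 0 1 ×ˢ Icc 0 1) ×ˢ Icc 0 1))
    (hG1 : ∀ s ∈ Icc (0 : ℝ) 1, ∀ τ ∈ Icc (0 : ℝ) 1, G s τ 1 = G s τ 0)
    (hGp : ∀ s ∈ Icc (0 : ℝ) 1, ∀ t ∈ Icc (0 : ℝ) 1, G s 1 t = G s 0 t)
    (hG0 : ∀ τ ∈ Icc (0 : ℝ) 1, ∀ t ∈ Icc (0 : ℝ) 1, G 0 τ t = Φ (g τ t))
    (hstd : ∀ m : ℕ, 2 ≤ m →
      Par (-1) (fun τ => bp κ (2 * m) (fun i => G 1 τ ((i : ℝ) / ((2 * m : ℕ) : ℝ)))))
    {r₀ : ℝ} (hr₀pos : 0 < r₀) (hr₀ : r₀ ≤ r) (hA : 2 * A * r₀ ^ 2 < 1) {Ψ : M → Y} {L : ℝ}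
    (hL : 0 < L) (hΨ : ∀ x y, dist (Ψ x) (Ψ y) ≤ L * dist x y)
    (hc : ∀ x, dist (Ψ x) (Φ x) ≤ r₀ / 4)
    {A' r' : ℝ} (h : Ker (fun x y => κ (Ψ x) (Ψ y)) A' r') :
    ∃ b : ℝ, 0 ≤ b ∧ ∃ w lam, WeakSweep h.toHol x₀ b w lam := by
  obtain ⟨n₁, H₁⟩ := exists_fine (isCompact_Icc.prod isCompact_Icc) (F := fun a : ℝ × ℝ =>
    G a.1 a.2) hG (show 0 < r₀ / 4 by positivity)
  obtain ⟨n₂, H₂⟩ := exists_fine (isCompact_Icc (a := (0 : ℝ)) (b := 1)) (F := g) hg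
    (show 0 < min ρ (r₀ / L) from lt_min hρ (by positivity))
  set m : ℕ := 2 + n₁ + n₂ with hm
  set N : ℕ := 2 * m with hN
  have hN0 : 0 < N := by omega
  have hN' : (0 : ℝ) < N := Nat.cast_pos.2 hN0
  have hmem : ∀ i : ℕ, i ≤ N → (i : ℝ) / N ∈ Icc (0 : ℝ) 1 := fun i hi =>
    ⟨by positivity, (div_le_one hN').2 (by exact_mod_cast hi)⟩
  have h0 : (0 : ℝ) ∈ Icc (0 : ℝ) 1 := left_mem_Icc.2 zero_le_one
  have h1 : (1 : ℝ) ∈ Icc (0 : ℝ) 1 := right_mem_Icc.2 zero_le_one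
  have hsG : ∀ s ∈ Icc (0 : ℝ) 1, ∀ τ ∈ Icc (0 : ℝ) 1, ∀ i < N,
      dist (G s τ ((i : ℝ) / N)) (G s τ (((i + 1 : ℕ) : ℝ) / N)) < r₀ / 4 :=
    fun s hs τ hτ i hi => H₁ N (by omega) (s, τ) ⟨hs, hτ⟩ i hi
  have hsg : ∀ τ ∈ Icc (0 : ℝ) 1, ∀ i < N,
      dist (g τ ((i : ℝ) / N)) (g τ (((i + 1 : ℕ) : ℝ) / N)) < min ρ (r₀ / L) :=
    fun τ hτ i hi => H₂ N (by omega) τ hτ i hi
  -- homotopy
  have hGc : ∀ t ∈ Icc (0 : ℝ) 1,
      ContinuousOn (fun q : ℝ × ℝ => G q.1 q.2 t) (Icc 0 1 ×ˢ Icc 0 1) := fun t ht =>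
    hG.comp (f := fun q : ℝ × ℝ => (q, t)) (by fun_prop) fun q hq => ⟨hq, ht⟩
  have hp1 : Par (-1) (fun τ => bp κ N (fun i => G 0 τ ((i : ℝ) / N))) := by
    have key := par_homotopy hκ (N := N) (P := fun s τ i => G (1 - s) τ ((i : ℝ) / N)) (c := -1)
      (fun i hi => ?_) (fun s hs τ hτ i hi => ?_) (fun s hs τ hτ => ?_) (fun s hs i hi => ?_) ?_
    · simpa using key
    · exact (hGc _ (hmem i hi)).comp (f := fun q : ℝ × ℝ => (1 - q.1, q.2)) (by fun_prop)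
        fun q hq => ⟨⟨by linarith [hq.1.2], by linarith [hq.1.1]⟩, hq.2⟩
    · exact (hsG _ ⟨by linarith [hs.2], by linarith [hs.1]⟩ τ hτ i hi).trans_le (by linarith)
    · rw [div_self hN'.ne', Nat.cast_zero, zero_div]
      exact hG1 _ ⟨by linarith [hs.2], by linarith [hs.1]⟩ τ hτ
    · exact hGp _ ⟨by linarith [hs.2], by linarith [hs.1]⟩ _ (hmem i hi)
    · simp only [sub_zero]
      exact hstd m (by omega)
  have hp2 : Par (-1) (fun τ => bp κ N (fun i => Φ (g τ ((i : ℝ) / N)))) :=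
    hp1.congr fun τ hτ => bp_congr fun i hi => hG0 τ hτ _ (hmem i hi)
  -- approximation
  have hΨc : Continuous Ψ := by
    refine (LipschitzWith.of_dist_le_mul (K := ⟨L, hL.le⟩) fun x y => ?_).continuous
    exact hΨ x y
  have hgc : ∀ t ∈ Icc (0 : ℝ) 1, ContinuousOn (fun τ => g τ t) (Icc 0 1) := fun t ht =>
    hg.comp (f := fun τ : ℝ => (τ, t)) (by fun_prop) fun τ hτ => ⟨hτ, ht⟩
  have hFΦ : IsFam N r₀ (fun τ i => Φ (g τ ((i : ℝ) / N))) := by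
    refine ⟨fun i hi => ?_, fun τ hτ i hi => ?_, fun τ hτ => ?_, fun i hi => ?_⟩
    · have h2 : ContinuousOn (fun τ => G 0 τ ((i : ℝ) / N)) (Icc 0 1) :=
        (hGc _ (hmem i hi)).comp (f := fun τ : ℝ => (0, τ)) (by fun_prop) fun τ hτ => ⟨h0, hτ⟩
      exact h2.congr fun τ hτ => (hG0 τ hτ _ (hmem i hi)).symm
    · have h2 := hsG 0 h0 τ hτ i hi
      rw [hG0 τ hτ _ (hmem i hi.le), hG0 τ hτ _ (hmem (i + 1) hi)] at h2
      exact h2.trans_le (by linarith)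
    · rw [div_self hN'.ne', Nat.cast_zero, zero_div, hg1 τ hτ]
    · rw [hgp _ (hmem i hi)]
  have hFΨ : IsFam N r₀ (fun τ i => Ψ (g τ ((i : ℝ) / N))) := by
    refine ⟨fun i hi => hΨc.comp_continuousOn (hgc _ (hmem i hi)), fun τ hτ i hi => ?_,
      fun τ hτ => ?_, fun i hi => ?_⟩
    · have h2 := hsG 0 h0 τ hτ i hi
      rw [hG0 τ hτ _ (hmem i hi.le), hG0 τ hτ _ (hmem (i + 1) hi)] at h2
      have h3 := hc (g τ ((i : ℝ) / N))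
      have h4 := hc (g τ (((i + 1 : ℕ) : ℝ) / N))
      rw [dist_comm] at h4
      have h5 := dist_triangle4 (Ψ (g τ ((i : ℝ) / N))) (Φ (g τ ((i : ℝ) / N)))
        (Φ (g τ (((i + 1 : ℕ) : ℝ) / N))) (Ψ (g τ (((i + 1 : ℕ) : ℝ) / N)))
      change dist (Ψ (g τ ((i : ℝ) / N))) (Ψ (g τ (((i + 1 : ℕ) : ℝ) / N))) < r₀
      linarith
    · rw [div_self hN'.ne', Nat.cast_zero, zero_div, hg1 τ hτ]
    · rw [hgp _ (hmem i hi)]
  have hp3 : Par (-1) (fun τ => bp κ N (fun i => Ψ (g τ ((i : ℝ) / N)))) :=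
    hFΨ.close hκ hr₀ hA hFΦ (fun τ _ i _ => (hc _).trans_lt (by linarith)) hp2
  refine exists_weakSweep_of_par hκ hρ hU hg hg1 hg0 hgp hL hΨ hr₀ hA hN0
    (fun τ hτ i hi => (hsg τ hτ i hi).trans_le (min_le_left _ _)) (fun τ hτ i hi => ?_) hp3 h
  have h2 := (hsg τ hτ i hi).trans_le (min_le_right _ _)
  rw [lt_div_iff₀ hL] at h2
  linarith

/-- A radius for the estimates. -/
theorem exists_radius (hκ : Ker κ A r) : ∃ r₀ : ℝ, 0 < r₀ ∧ r₀ ≤ r ∧ 2 * A * r₀ ^ 2 < 1 := by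
  have hA := hκ.A_nonneg
  have hr := hκ.r_pos
  refine ⟨min r (1 / (2 * (A + 1))), lt_min hr (by positivity), min_le_left _ _, ?_⟩
  have h1 : min r (1 / (2 * (A + 1))) ≤ 1 / (2 * (A + 1)) := min_le_right _ _
  have h2 : 0 < min r (1 / (2 * (A + 1))) := lt_min hr (by positivity)
  have h3 : min r (1 / (2 * (A + 1))) ^ 2 ≤ (1 / (2 * (A + 1))) ^ 2 := by gcongr
  calc 2 * A * min r (1 / (2 * (A + 1))) ^ 2 ≤ 2 * A * (1 / (2 * (A + 1))) ^ 2 := by gcongr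
    _ < 1 := by
      rw [div_pow, one_pow, mul_one_div, div_lt_one (by positivity)]
      nlinarith

end Vale.Agent.P216.H288
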